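import Vale.Agent.N007X.Eq

open MeasureTheory ProbabilityTheory Filter Topology

namespace Vale.Agent.Results.P007.A0AllLimits

open Vale.Agent.N007 Vale.Agent.N007X

/-- **All weak limits of packets.** Let `n ≥ 3`, let `μ_i` be the packet measures of a sequence of
orders with `|Disc O_i| → ∞`, and let `R` be the ring of the vectors lying in almost all `σ_i(O_i)`.
(1) The lattices with multiplication by `R` carry almost all `μ_i`, and are a finite union of
orbits of the centralizer of `R`, a group of block matrices with blocks of one size `k ≥ 2`.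
(2) A weak limit `ν` determines `R`, is a combination of invariant probabilities on these
orbits with the limits of the masses as weights, and is `m_n` or singular to it.
(3) The sequence has a weak limit iff the rings `σ_i(O_i)` converge to `R` and the finitely many
masses converge.
(4) If `R` is a Dedekind ring (so for maximal orders), the charged orbits have equal masses, and the
masses converge iff the set of the charged orbits is eventually constant.
(5) If `R` is a principal ideal ring, the convergence of the rings suffices and the limit depends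
on `R` only. -/
theorem result (n : ℕ) (hn : 3 ≤ n) :
    (∀ (T : ℕ → Data n) (μ : ℕ → Measure (X n)), Seq T μ → ∃ R : Subring (Fin n → ℝ),
      liminf (fun i => mult (T i)) atTop = R ∧
      ((∀ᶠ i in atTop, ↑R ⊆ mult (T i) ∧ μ i (Stab R)ᶜ = 0) ∧ (orbs (n := n) R).Finite ∧
        ⋃₀ orbs R = Stab (n := n) R ∧
        ∃ p ∈ R, ∃ k, 2 ≤ k ∧ (∀ j, {l | p l = p j}.ncard = k) ∧
          Cen R = {g | ∀ j l, p j ≠ p l → g.1 j l = 0}) ∧
      (∀ ν, IsProbabilityMeasure ν → WeakTo μ ν →
        R = {p | ν (Stab {p}) ≠ 0} ∧ ν (Stab R)ᶜ = 0 ∧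
        (∀ S ∈ orbs (n := n) R, Tendsto (fun i => μ i S) atTop (𝓝 (ν S)) ∧
          (ν S ≠ 0 → IsOrbitProb (act R) S ν[|S])) ∧
        ∀ m, IsHaar m → ν = m ∨ ν ⟂ₘ m) ∧
      ((∃ ν, IsProbabilityMeasure ν ∧ WeakTo μ ν) ↔ limsup (fun i => mult (T i)) atTop = R ∧
        ∀ S ∈ orbs (n := n) R, ∃ c, Tendsto (fun i => μ i S) atTop (𝓝 c)) ∧
      ((∀ i, (T i).O = ⊤) → IsDedekindDomain R) ∧
      (IsDedekindDomain R →
        (∀ᶠ i in atTop, ∀ S ∈ orbs (n := n) R, ∀ S' ∈ orbs (n := n) R,
          μ i S ≠ 0 → μ i S' ≠ 0 → μ i S = μ i S') ∧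
        ((∀ S ∈ orbs (n := n) R, ∃ c, Tendsto (fun i => μ i S) atTop (𝓝 c)) ↔
          ∃ F, ∀ᶠ i in atTop, {S ∈ orbs (n := n) R | μ i S ≠ 0} = F))) ∧
    ∀ R : Subring (Fin n → ℝ), IsPrincipalIdealRing R → ∃ ν, IsProbabilityMeasure ν ∧
      ∀ (T : ℕ → Data n) (μ : ℕ → Measure (X n)), Seq T μ →
        liminf (fun i => mult (T i)) atTop = R → limsup (fun i => mult (T i)) atTop = R →
          WeakTo μ ν := by
  refine ⟨fun T μ h => ?_, fun R _ => ?_⟩
  · obtain ⟨p, hp⟩ := exists_gen' (rng T atTop)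
    refine ⟨rng T atTop, liminf_eq T, ⟨(h.sub hn).2.mono fun i hi => ⟨hi, h.stab hi⟩,
      (h.shape hn).1, sUnion_orbs _, (h.shape hn).2⟩,
      fun ν _ hW => ?_, ?_, h.ded hn, fun _ => h.equal hn⟩
    · obtain ⟨h1, h2, h3, h4⟩ := h.limit hn hW
      exact ⟨h1, h2, fun S hS => ⟨h4 S hS, hp.cond h3 hS⟩,
        fun m hm => or_iff_not_imp_left.2 (h.haar hn hW hm).2⟩
    · rw [← liminf_eq, stable_iff, liminf_eq]
      exact ⟨fun ⟨ν, _, hW⟩ => ⟨h.stable hn hW, fun S hS => ⟨_, (h.limit hn hW).2.2.2 S hS⟩⟩,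
        fun ⟨h1, h2⟩ => h.conv hn h1 h2⟩
  · obtain ⟨ν, h1, h2⟩ := pid hn R
    exact ⟨ν, h1, fun T μ h a b => h2 T μ h (stable_iff.1 (b.trans a.symm))
      (SetLike.coe_injective ((liminf_eq T).symm.trans a))⟩

end Vale.Agent.Results.P007.A0AllLimits
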